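import Mathlib

/-!
# P141, line (A): numbers of the stack part

From the pair bounds `K (j + 1) ^ 3 (...)` at the levels `x` to the hypotheses of the stage sum
(factor `√(τ / x)`), pure real numbers.
-/

namespace Vale.Agent.P141.H221

noncomputable section

theorem six_le (j : ℕ) : 2 * (j + 1) ^ 6 ≤ 4225 * 2 ^ j := by
  rcases Nat.lt_or_ge j 8 with h | h
  · interval_cases j <;> norm_num
  · induction j, h using Nat.le_induction with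
    | base => norm_num
    | succ n hn ih =>
      have h1 : (n + 1 + 1) ^ 6 ≤ 2 * (n + 1) ^ 6 := by
        obtain ⟨m, rfl⟩ : ∃ m, n = m + 8 := ⟨n - 8, by omega⟩
        ring_nf
        nlinarith [Nat.zero_le m, Nat.zero_le (m ^ 2), Nat.zero_le (m ^ 3), Nat.zero_le (m ^ 4),
          Nat.zero_le (m ^ 5), Nat.zero_le (m ^ 6)]
      calc 2 * (n + 1 + 1) ^ 6 ≤ 2 * (2 * (n + 1) ^ 6) := by omega
        _ = 2 * (2 * (n + 1) ^ 6) := rfl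
        _ ≤ 2 * (4225 * 2 ^ n) := by omega
        _ = 4225 * 2 ^ (n + 1) := by ring

/-- number of levels between `x` and `τ` -/
theorem lev_exists {x τ : ℝ} (hx : 0 < x) (hxτ : x ≤ τ) :
    ∃ j : ℕ, τ ≤ 2 ^ j * x ∧ ((j : ℝ) + 1) ^ 3 ≤ 65 * √(τ / x) := by
  have hτ : 0 < τ := hx.trans_le hxτ
  have hex : ∃ j : ℕ, τ ≤ 2 ^ j * x := by
    obtain ⟨j, hj⟩ := pow_unbounded_of_one_lt (τ / x) (one_lt_two : (1 : ℝ) < 2)
    refine ⟨j, ?_⟩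
    rw [div_lt_iff₀ hx] at hj
    exact hj.le
  classical
  refine ⟨Nat.find hex, Nat.find_spec hex, ?_⟩
  set j := Nat.find hex with hj
  have hq : (1 : ℝ) ≤ τ / x := by rwa [le_div_iff₀ hx, one_mul]
  have h2 : (2 : ℝ) ^ j ≤ 2 * (τ / x) := by
    rcases Nat.eq_zero_or_pos j with h0 | h0
    · rw [h0]
      simp only [pow_zero]
      linarith
    · have h3 : ¬ τ ≤ 2 ^ (j - 1) * x := Nat.find_min hex (by omega)
      push Not at h3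
      have h4 : (2 : ℝ) ^ (j - 1) < τ / x := by rwa [lt_div_iff₀ hx]
      have h5 : (2 : ℝ) ^ j = 2 * 2 ^ (j - 1) := by
        rw [← pow_succ']
        congr 1
        omega
      rw [h5]
      linarith
  have h6 : (2 : ℝ) * ((j : ℝ) + 1) ^ 6 ≤ 4225 * 2 ^ j := by exact_mod_cast six_le j
  have h7 : (((j : ℝ) + 1) ^ 3) ^ 2 ≤ (65 * √(τ / x)) ^ 2 := by
    rw [mul_pow, Real.sq_sqrt (by positivity)]
    nlinarith [h6, h2]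
  exact le_of_sq_le_sq h7 (by positivity)

theorem lev_mul {J j : ℕ} : ((J + j : ℕ) : ℝ) + 1 ≤ ((J : ℝ) + 1) * ((j : ℝ) + 1) := by
  have h1 : (0 : ℝ) ≤ (J : ℝ) * j := by positivity
  push_cast
  nlinarith

theorem sqrt_mul_pull {a b : ℝ} (ha : 0 ≤ a) : √(a ^ 2 * b) = a * √b := by
  rw [Real.sqrt_mul (sq_nonneg a), Real.sqrt_sq ha]

/-- **Both slots saturated.** `R` the pair sum at the levels `x`, `θ x`; `E` the energy of the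
stack, `EV` the variation number, `EB` the energy of the partner. -/
theorem pair_sat {K E EB EV cC θ τ : ℝ} {J : ℕ} {R : ℝ → ℝ} (hK : 0 ≤ K) (hE : 0 ≤ E)
    (hEB : 0 ≤ EB) (hθ : 0 < θ) (hcC : cC ≤ 2 ^ J * (θ * τ))
    (h : ∀ x : ℝ, ∀ j : ℕ, 0 < x → x ≤ τ → cC ^ 2 ≤ 4 ^ j * (θ * x) ^ 2 →
      R x ≤ K * (j + 1) ^ 3 * (√((θ * x) ^ 2 * E * (x ^ 2 * EV)) + x ^ 2 * E
        + (θ * x) ^ 2 * EB)) (hC0 : 0 ≤ cC) {x : ℝ} (hx : 0 < x) (hxτ : x ≤ τ) :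
    R x ≤ 65 * K * (J + 1) ^ 3 * (θ * √(E * EV) + E + θ ^ 2 * EB) * (x ^ 2 * √(τ / x)) := by
  obtain ⟨j, hj1, hj2⟩ := lev_exists hx hxτ
  have hc : cC ^ 2 ≤ 4 ^ (J + j) * (θ * x) ^ 2 := by
    have h1 : cC ≤ 2 ^ (J + j) * (θ * x) := by
      calc cC ≤ 2 ^ J * (θ * τ) := hcC
        _ ≤ 2 ^ J * (θ * (2 ^ j * x)) := by gcongr
        _ = 2 ^ (J + j) * (θ * x) := by rw [pow_add]; ring
    calc cC ^ 2 ≤ (2 ^ (J + j) * (θ * x)) ^ 2 := by gcongr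
      _ = 4 ^ (J + j) * (θ * x) ^ 2 := by
        rw [mul_pow, ← pow_mul, mul_comm (J + j) 2, pow_mul]
        norm_num
  have h1 := h x (J + j) hx hxτ hc
  have hr : √((θ * x) ^ 2 * E * (x ^ 2 * EV)) = θ * x ^ 2 * √(E * EV) := by
    rw [show (θ * x) ^ 2 * E * (x ^ 2 * EV) = (θ * x ^ 2) ^ 2 * (E * EV) by ring,
      sqrt_mul_pull (by positivity)]
  have h3 : (((J + j : ℕ) : ℝ) + 1) ^ 3 ≤ 65 * (J + 1) ^ 3 * √(τ / x) := by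
    calc (((J + j : ℕ) : ℝ) + 1) ^ 3 ≤ (((J : ℝ) + 1) * ((j : ℝ) + 1)) ^ 3 := by
          gcongr
          exact lev_mul
      _ = ((J : ℝ) + 1) ^ 3 * ((j : ℝ) + 1) ^ 3 := by ring
      _ ≤ ((J : ℝ) + 1) ^ 3 * (65 * √(τ / x)) := by gcongr
      _ = _ := by ring
  have h0 : 0 ≤ θ * √(E * EV) + E + θ ^ 2 * EB := by positivity
  calc R x ≤ K * (((J + j : ℕ) : ℝ) + 1) ^ 3 * (√((θ * x) ^ 2 * E * (x ^ 2 * EV)) + x ^ 2 * E
        + (θ * x) ^ 2 * EB) := by simpa using h1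
    _ = K * (((J + j : ℕ) : ℝ) + 1) ^ 3 * (x ^ 2 * (θ * √(E * EV) + E + θ ^ 2 * EB)) := by
        rw [hr]
        ring
    _ ≤ K * (65 * (J + 1) ^ 3 * √(τ / x)) * (x ^ 2 * (θ * √(E * EV) + E + θ ^ 2 * EB)) := by
        gcongr
    _ = _ := by ring

/-- **Raw partner with the cap `t`**, levels of the stack above `θ τ`. -/
theorem pair_raw {K E EV cC θ τ t : ℝ} {J : ℕ} {R : ℝ → ℝ} (hK : 0 ≤ K) (hE : 0 ≤ E)
    (hθ : 0 < θ) (ht : 0 ≤ t) (htτ : t ≤ τ) (hcC : cC ≤ 2 ^ J * (θ * τ))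
    (hC0 : 0 ≤ cC)
    (h : ∀ x : ℝ, ∀ j : ℕ, 0 < x → cC ^ 2 ≤ 4 ^ j * x ^ 2 →
      R x ≤ K * (j + 1) ^ 3 * (√(x ^ 2 * E * (t ^ 2 * EV)) + t ^ 2 * E)) {x : ℝ}
    (hx0 : 0 < x) (hx : θ * τ ≤ x) :
    R x ≤ K * (J + 1) ^ 3 * (√(E * EV) + E / θ) * (τ * x) := by
  have hτ : 0 ≤ τ := ht.trans htτ
  have hc : cC ^ 2 ≤ 4 ^ J * x ^ 2 := by
    have h1 : cC ≤ 2 ^ J * x := hcC.trans (by gcongr)
    calc cC ^ 2 ≤ (2 ^ J * x) ^ 2 := by gcongr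
      _ = 4 ^ J * x ^ 2 := by
        rw [mul_pow, ← pow_mul, mul_comm J 2, pow_mul]
        norm_num
  have hr : √(x ^ 2 * E * (t ^ 2 * EV)) = x * t * √(E * EV) := by
    rw [show x ^ 2 * E * (t ^ 2 * EV) = (x * t) ^ 2 * (E * EV) by ring,
      sqrt_mul_pull (by positivity)]
  have h2 : t ^ 2 * E ≤ τ * x * (E / θ) := by
    have h3 : t ^ 2 ≤ τ * (x / θ) := by
      have h4 : τ ≤ x / θ := by
        rw [le_div_iff₀ hθ]
        linarith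
      calc t ^ 2 = t * t := sq t
        _ ≤ τ * (x / θ) := mul_le_mul htτ (htτ.trans h4) ht hτ
    calc t ^ 2 * E ≤ τ * (x / θ) * E := by gcongr
      _ = τ * x * (E / θ) := by ring
  calc R x ≤ K * ((J : ℝ) + 1) ^ 3 * (√(x ^ 2 * E * (t ^ 2 * EV)) + t ^ 2 * E) := h x J hx0 hc
    _ ≤ K * ((J : ℝ) + 1) ^ 3 * (τ * x * √(E * EV) + τ * x * (E / θ)) := by
        rw [hr]
        have h5 : x * t * √(E * EV) ≤ τ * x * √(E * EV) := by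
          have := mul_le_mul_of_nonneg_left htτ hx0.le
          have h6 : x * t ≤ τ * x := by linarith
          gcongr
        gcongr
    _ = _ := by ring

/-- **The product of the two raw pair sums.** -/
theorem raw_prod {K E EA EV θ τ x RB RC : ℝ} {J : ℕ} (hK : 0 ≤ K)
    (hτ : 0 ≤ τ) (hx : 0 ≤ x) (hRC : 0 ≤ RC)
    (hb : RB ≤ K * (J + 1) ^ 3 * (√(E * EV) + E / θ) * (τ * x))
    (hc : RC ≤ K * (J + 1) ^ 3 * (√(E * EA) + E / θ) * (τ * x)) (hE : 0 ≤ E) (hθ : 0 < θ) :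
    √(RB * RC) ≤ K * (J + 1) ^ 3 * τ * √((√(E * EV) + E / θ) * (√(E * EA) + E / θ)) * x := by
  have h1 : RB * RC ≤ (K * (J + 1) ^ 3 * τ * x) ^ 2 *
      ((√(E * EV) + E / θ) * (√(E * EA) + E / θ)) := by
    calc RB * RC ≤ (K * (J + 1) ^ 3 * (√(E * EV) + E / θ) * (τ * x)) *
          (K * (J + 1) ^ 3 * (√(E * EA) + E / θ) * (τ * x)) :=
          mul_le_mul hb hc hRC (by positivity)
      _ = _ := by ring
  calc √(RB * RC) ≤ √((K * (J + 1) ^ 3 * τ * x) ^ 2 *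
        ((√(E * EV) + E / θ) * (√(E * EA) + E / θ))) := Real.sqrt_le_sqrt h1
    _ = K * (J + 1) ^ 3 * τ * x * √((√(E * EV) + E / θ) * (√(E * EA) + E / θ)) :=
        sqrt_mul_pull (by positivity)
    _ = _ := by ring

/-- a constant factor `c ≥ 1` under the root -/
theorem sqrt_fac {c y : ℝ} (hc : 1 ≤ c) : √(c * y) ≤ c * √y := by
  have hc0 : 0 ≤ c := zero_le_one.trans hc
  rw [Real.sqrt_mul hc0]
  have h1 : √c ≤ c := by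
    rw [Real.sqrt_le_left hc0]
    nlinarith
  gcongr

theorem fin_num {K₆ Kp K J τ a b c θ Y : ℝ} (hK6 : 0 ≤ K₆) (hKp : 1 ≤ Kp) (hK : 1 ≤ K)
    (hJ : 1 ≤ J) (hτ : 0 ≤ τ) (ha : 0 ≤ a) (hb : 0 ≤ b) (hc : 0 ≤ c) (hθ : 0 < θ) (hY : 0 ≤ Y) :
    K₆ * (65 * Kp * K * J ^ 3 * a + 65 * Kp * K * J ^ 3 * b + 65 * K * J ^ 3 * c / θ) * τ
      + 6 * (K * J ^ 3 * τ * Y) * J ≤
      (65 * K₆ * Kp * K + 6 * K) * J ^ 4 * τ * (a + b + c / θ + Y) := by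
  have hK0 : 0 ≤ K := zero_le_one.trans hK
  have hKp0 : 0 ≤ Kp := zero_le_one.trans hKp
  have hJ0 : 0 ≤ J := zero_le_one.trans hJ
  have hcθ : 0 ≤ c / θ := by positivity
  have h34 : J ^ 3 ≤ J ^ 4 := pow_le_pow_right₀ hJ (by norm_num)
  calc K₆ * (65 * Kp * K * J ^ 3 * a + 65 * Kp * K * J ^ 3 * b + 65 * K * J ^ 3 * c / θ) * τ
      + 6 * (K * J ^ 3 * τ * Y) * J
      = 65 * K₆ * K * J ^ 3 * τ * (Kp * a + Kp * b + 1 * (c / θ)) + 6 * K * J ^ 4 * τ * Y := by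
        ring
    _ ≤ 65 * K₆ * K * J ^ 4 * τ * (Kp * a + Kp * b + Kp * (c / θ)) + 6 * K * J ^ 4 * τ * Y := by
        gcongr
    _ = 65 * K₆ * Kp * K * J ^ 4 * τ * (a + b + c / θ) + 6 * K * J ^ 4 * τ * Y := by ring
    _ ≤ 65 * K₆ * Kp * K * J ^ 4 * τ * (a + b + c / θ + Y)
        + 6 * K * J ^ 4 * τ * (a + b + c / θ + Y) := by
        have h5 : a + b + c / θ ≤ a + b + c / θ + Y := by linarith
        have h6 : Y ≤ a + b + c / θ + Y := by linarith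
        exact add_le_add (mul_le_mul_of_nonneg_left h5 (by positivity))
          (mul_le_mul_of_nonneg_left h6 (by positivity))
    _ = _ := by ring

/-- **The arithmetic of the stack part.** `Φ` the stage sum, `hst` the conclusion of the stage
lemma (`StageG`) for given families; `SB`, `SC` both saturated, `TB`, `TC` one slot raw.
`E`, `EA`, `EB` energies, `EV` the variation of `B`. -/
theorem stack_num {Φ K₆ Kp K E EA EB EV P cA cB cC θ τ : ℝ} {J : ℕ} {SP SB SC TB TC : ℝ → ℝ}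
    (hK6 : 0 ≤ K₆) (hKp : 1 ≤ Kp) (hK : 1 ≤ K) (hE : 0 ≤ E) (hEA : 0 ≤ EA) (hEB : 0 ≤ EB)
    (hP : 0 ≤ P) (hθ : 0 < θ) (hA : 0 ≤ cA) (hB : 0 ≤ cB) (hC : 0 ≤ cC)
    (hAτ : cA ≤ τ) (hBτ : cB ≤ τ) (hcC : cC ≤ 2 ^ J * (θ * τ))
    (hst : ∀ {P₀ PA PB κ' : ℝ}, 0 ≤ P₀ → 0 ≤ PA → 0 ≤ PB → 0 ≤ κ' →
      (∀ x, 0 < x → x ≤ τ → SP x ≤ P₀ * (x ^ 2 * √(τ / x))) →
      (∀ x, 0 < x → x ≤ τ → SB x ≤ PB * (x ^ 2 * √(τ / x))) →
      (∀ x, 0 < x → x ≤ τ → SC x ≤ PA * (x ^ 2 * √(τ / x))) →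
      (∀ x, θ * τ ≤ x → x ≤ cC → √(TB x * TC x) ≤ κ' * x) →
      ∀ {L₀ : ℕ}, cC / 2 ^ (L₀ - 1) ≤ θ * τ →
      Φ ≤ K₆ * (√(P₀ * PA) + √(P₀ * PB) + √(PA * PB) / θ) * τ + 6 * κ' * L₀)
    (hP0 : ∀ x, 0 < x → x ≤ τ → SP x ≤ Kp * (x ^ 2 * P))
    (hSB : ∀ x : ℝ, ∀ j : ℕ, 0 < x → x ≤ τ → cC ^ 2 ≤ 4 ^ j * (θ * x) ^ 2 →
      SB x ≤ K * (j + 1) ^ 3 * (√((θ * x) ^ 2 * E * (x ^ 2 * EV)) + x ^ 2 * E
        + (θ * x) ^ 2 * EB))
    (hSC : ∀ x : ℝ, ∀ j : ℕ, 0 < x → x ≤ τ → cC ^ 2 ≤ 4 ^ j * (θ * x) ^ 2 →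
      SC x ≤ K * (j + 1) ^ 3 * (√((θ * x) ^ 2 * E * (x ^ 2 * EA)) + x ^ 2 * E
        + (θ * x) ^ 2 * EA))
    (hTB : ∀ x : ℝ, ∀ j : ℕ, 0 < x → cC ^ 2 ≤ 4 ^ j * x ^ 2 →
      TB x ≤ K * (j + 1) ^ 3 * (√(x ^ 2 * E * (cB ^ 2 * EV)) + cB ^ 2 * E))
    (hTC : ∀ x : ℝ, ∀ j : ℕ, 0 < x → cC ^ 2 ≤ 4 ^ j * x ^ 2 →
      TC x ≤ K * (j + 1) ^ 3 * (√(x ^ 2 * E * (cA ^ 2 * EA)) + cA ^ 2 * E))
    (hTC0 : ∀ x, 0 ≤ TC x) (hτ : 0 < τ) :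
    Φ ≤ (65 * K₆ * Kp * K + 6 * K) * (J + 1) ^ 4 * τ *
      (√(P * (θ * √(E * EA) + E + θ ^ 2 * EA)) + √(P * (θ * √(E * EV) + E + θ ^ 2 * EB))
        + √((θ * √(E * EA) + E + θ ^ 2 * EA) * (θ * √(E * EV) + E + θ ^ 2 * EB)) / θ
        + √((√(E * EV) + E / θ) * (√(E * EA) + E / θ))) := by
  have hK0 : 0 ≤ K := zero_le_one.trans hK
  have hKp0 : 0 ≤ Kp := zero_le_one.trans hKp
  set XA := θ * √(E * EA) + E + θ ^ 2 * EA with hXA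
  set XB := θ * √(E * EV) + E + θ ^ 2 * EB with hXB
  set Y := √((√(E * EV) + E / θ) * (√(E * EA) + E / θ)) with hY
  have hXA0 : 0 ≤ XA := by positivity
  have hXB0 : 0 ≤ XB := by positivity
  have hY0 : 0 ≤ Y := Real.sqrt_nonneg _
  have hJ : (1 : ℝ) ≤ (J : ℝ) + 1 := by
    have : (0 : ℝ) ≤ (J : ℝ) := by positivity
    linarith
  have key := hst (P₀ := Kp * P) (PA := 65 * K * (J + 1) ^ 3 * XA)
    (PB := 65 * K * (J + 1) ^ 3 * XB) (κ' := K * (J + 1) ^ 3 * τ * Y)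
    (by positivity) (by positivity) (by positivity) (by positivity)
    (fun x hx hxτ => by
      have h1 : (1 : ℝ) ≤ √(τ / x) := by
        rw [Real.one_le_sqrt, le_div_iff₀ hx, one_mul]
        exact hxτ
      calc SP x ≤ Kp * (x ^ 2 * P) := hP0 x hx hxτ
        _ = Kp * P * (x ^ 2 * 1) := by ring
        _ ≤ _ := by gcongr)
    (fun x hx hxτ => pair_sat hK0 hE hEB hθ hcC hSB hC hx hxτ)
    (fun x hx hxτ => pair_sat hK0 hE hEA hθ hcC hSC hC hx hxτ)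
    (fun x hx _ => by
      have hx0 : 0 < x := (by positivity : 0 < θ * τ).trans_le hx
      exact raw_prod hK0 hτ.le hx0.le (hTC0 x)
        (pair_raw hK0 hE hθ hB hBτ hcC hC hTB hx0 hx)
        (pair_raw hK0 hE hθ hA hAτ hcC hC hTC hx0 hx) hE hθ)
    (L₀ := J + 1) (by
      rw [Nat.add_sub_cancel, div_le_iff₀ (by positivity)]
      linarith)
  have hJ3 : (1 : ℝ) ≤ ((J : ℝ) + 1) ^ 3 := one_le_pow₀ hJ
  have h1 : (1 : ℝ) ≤ 65 * Kp * K * (J + 1) ^ 3 := by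
    have h3 : (1 : ℝ) ≤ 65 * Kp * K := by nlinarith
    exact one_le_mul_of_one_le_of_one_le h3 hJ3
  have hA' : √(Kp * P * (65 * K * (J + 1) ^ 3 * XA)) ≤ 65 * Kp * K * (J + 1) ^ 3 * √(P * XA) := by
    rw [show Kp * P * (65 * K * ((J : ℝ) + 1) ^ 3 * XA) = (65 * Kp * K * (J + 1) ^ 3) * (P * XA) by
      ring]
    exact sqrt_fac h1
  have hB' : √(Kp * P * (65 * K * (J + 1) ^ 3 * XB)) ≤ 65 * Kp * K * (J + 1) ^ 3 * √(P * XB) := by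
    rw [show Kp * P * (65 * K * ((J : ℝ) + 1) ^ 3 * XB) = (65 * Kp * K * (J + 1) ^ 3) * (P * XB) by
      ring]
    exact sqrt_fac h1
  have hAB : √(65 * K * (J + 1) ^ 3 * XA * (65 * K * (J + 1) ^ 3 * XB)) =
      65 * K * (J + 1) ^ 3 * √(XA * XB) := by
    rw [show 65 * K * (J + 1) ^ 3 * XA * (65 * K * (J + 1) ^ 3 * XB) =
      (65 * K * ((J : ℝ) + 1) ^ 3) ^ 2 * (XA * XB) by ring, sqrt_mul_pull (by positivity)]
  refine key.trans (le_trans ?_ (fin_num hK6 hKp hK hJ hτ.le (Real.sqrt_nonneg (P * XA))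
    (Real.sqrt_nonneg (P * XB)) (Real.sqrt_nonneg (XA * XB)) hθ hY0))
  rw [hAB]
  push_cast
  gcongr

end

end Vale.Agent.P141.H221
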